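import Vale.Agent.P166W95.Main

namespace Vale.Agent.Results.P166.AHaar

open MeasureTheory Filter Topology Vale.Agent.P166W95

theorem result :
    (∀ N, CompactSpace (Orth N) ∧ IsTopologicalGroup (Orth N) ∧ ∃! ν, IsHaarProb N ν) ∧
    (∃ (Ω : Type) (_ : MeasurableSpace Ω) (P : Measure Ω), IsProbabilityMeasure P ∧
      ∃ U : (N : ℕ) → Ω → Orth N, ∀ N, HaarDistributed P (U N)) ∧
    ∀ μ : ProbabilityMeasure ℝ, IsCompact (μ : Measure ℝ).support →
      (∃ Λ, Standing Λ μ) ∧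
      (∀ z, sSup (μ : Measure ℝ).support < z → stieltjesInv μ (stieltjes μ z) = z) ∧
      (∀ y, (∀ z, sSup (μ : Measure ℝ).support < z → stieltjes μ z ≤ y) →
        stieltjesInv μ y = sSup (μ : Measure ℝ).support) ∧
      ContinuousOn (rTransform μ) (Set.Ioi 0) ∧
      Set.MapsTo (rTransform μ) (Set.Ioi 0)
        (Set.Icc (sInf (μ : Measure ℝ).support) (sSup (μ : Measure ℝ).support)) ∧
      ∀ β : ℝ, 0 < β →
        (∀ k m q, Exponents k m → MonoPath k q → q 0 = 0 → q k < 1 →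
          (∀ s ∈ Set.Ioo (0 : ℝ) 1, 0 < level k m q s) ∧
          IntervalIntegrable (fun s => rTransform μ (β * level k m q s)) volume 0 1 ∧
          IsLUB (innerValues β μ k m q) (sSup (innerValues β μ k m q))) ∧
        IsGLB (outerValues β μ) (parisiValue β μ) ∧
        ∀ Λ : (N : ℕ) → Fin N → ℝ, Standing Λ μ →
        ∀ (Ω : Type*) [MeasurableSpace Ω] (P : Measure Ω) [IsProbabilityMeasure P]
          (U : (N : ℕ) → Ω → Orth N), (∀ N, HaarDistributed P (U N)) →
          (∀ᵐ ω ∂P, Tendsto (fun N => pressure N β (coupling (Λ N) (U N ω))) atTop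
            (𝓝 (parisiValue β μ))) ∧
          TendstoInMeasure P (fun N ω => pressure N β (coupling (Λ N) (U N ω))) atTop
            (fun _ => parisiValue β μ) ∧
          (∀ r : ENNReal, 1 ≤ r → r ≠ ⊤ → Tendsto (fun N => eLpNorm
            (fun ω => pressure N β (coupling (Λ N) (U N ω)) - parisiValue β μ) r P) atTop
            (𝓝 0)) ∧
          (∀ N, Integrable (fun ω => pressure N β (coupling (Λ N) (U N ω))) P) ∧
          Tendsto (fun N => ∫ ω, pressure N β (coupling (Λ N) (U N ω)) ∂P) atTop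
            (𝓝 (parisiValue β μ)) :=
  ⟨fun N => ⟨compact_orth N, topGroup_orth N, existsUnique_haar N⟩, exists_model, fun μ hμ =>
    ⟨(P166.H295.exists_admissible (μ : Measure ℝ) hμ).imp fun Λ h => (standing_iff Λ μ hμ).2 h,
      fun _ hz => P166.F.stInv_eq hμ hz rfl, fun _ h => stieltjesInv_beyond μ h,
      continuousOn_r μ hμ, fun _ hy => ⟨P166.F.le_Rt hμ hy, P166.F.Rt_le hμ hy⟩,
      fun β hβ => ⟨fun _ _ _ hm hq hq0 hq1 => ⟨(level_ok μ hμ hβ hm hq hq0 hq1).1,
        (level_ok μ hμ hβ hm hq hq0 hq1).2, isLUB_inner β μ hm hq hq1⟩,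
        (limit_thm.{0} μ hμ hβ).1,
        fun Λ hΛ Ω _ P _ U hU => (limit_thm μ hμ hβ).2 Λ hΛ Ω P U hU⟩⟩⟩

end Vale.Agent.Results.P166.AHaar
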